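import Vale.Agent.P253.H348.Tor4
import Vale.Agent.P253.H51.Geod

open scoped Manifold ContDiff Bundle
open Bundle Vale.Agent.P253.Mfd Vale.Agent.P253.H577 Vale.Agent.P253.H348

namespace Vale.Agent.Results.P253.BoundedBelowPotential

/-- Let `M` be a complete connected noncompact Kähler manifold of positive bisectional curvature,
and let `h` be a Killing potential (a smooth function whose Hessian is invariant under the complex
structure `J`). Then `J ∇h` is complete, and its flow `ρ` consists of holomorphic isometries.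
In (1), (2), (3), (5) let `h` have a local minimum (which may be degenerate, and not isolated), or
a sublinear lower bound: `h ≥ - ε r - C(ε)` for every `ε > 0`, `r` the distance to a fixed point;
for instance `h` bounded below.
(1) `h` attains its minimum, its critical points are exactly its minimum points, and every orbit of
`-∇h` exists for all times and converges to one of them, exponentially fast; the map `P` which sends
`x` to the limit of its orbit is a holomorphic retraction of `M` onto the set of the critical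
points (which is therefore connected), and it is a locally trivial holomorphic bundle with fibre
`ℂ^(n-k)`, `k` the dimension of the critical set: every critical point `q` lies in a `P`-saturated
open set `U` with a holomorphic chart `e : U → E` such that `e (U) = Q⁻¹ (e (U))` and
`e (P x) = Q (e x)` for a linear projection `Q` onto the space of the vectors fixed by all
`d(ρ t)_q`, and `e` conjugates `ρ` to its differential at `q`. The critical set, `{Q z = z}` in the
chart `e`, is totally geodesic: the Christoffel symbols of `g` at its points preserve its tangent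
space `{Q u = u}`.
(2) If `h` also has a local maximum, or a sublinear upper bound, then `h` is constant.
(3) If the set of the critical points of `h` is compact, or has at least a nonempty compact
relatively open subset (for instance an isolated point), then `h` has exactly one critical point
`p`, the Hessian of `h` at `p` is positive definite, `d(ρ t)_p = diag (exp (i m_j t))` with real
`m_j > 0`, and a biholomorphism from `M` to `T_p M = ℂ^n` conjugates `ρ` to its differential at
`p`.
(4) Nothing is assumed on the minimum or the lower bound of `h`. Let `N` be a compact set on which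
`h` is equal to a constant `c`, and assume that `N` is not empty and is the level set `h = c`, or
that the complement of `N` is disconnected and `h` is not constant. Then the conclusion of (3)
holds for `h` or for `-h`.
(5) Let `ρ` extend to an action `R` of a real vector space `ℝ^d` on `M` by holomorphic isometries,
`ρ t = R (t κ)`, and let the `R`-orbit of a critical point `x` of `h` be isotropic (the Kähler form
vanishes on it) and as large as possible: its tangent space at `x` generates over `ℂ` the space of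
the vectors fixed by all `d(ρ t)_x`, which is the tangent space of the critical set. Then `R` fixes
a critical point `p`, some flow `t ↦ R (t ξ)` has positive weights at `p`, and a biholomorphism from
`M` to `T_p M = ℂ^n` linearizes it. (The critical set has dimension zero, and `R = ρ`; or it has
dimension one, and some flow of holomorphic isometries which commutes with `ρ` moves the critical
point `x`; or `h` is constant, and the torus `R` has an isotropic orbit of dimension `n`.) -/
theorem result {E : Type*} [NormedAddCommGroup E] [NormedSpace ℂ E] [FiniteDimensional ℂ E]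
    {M : Type*} [MetricSpace M] [ChartedSpace E M]
    [IsManifold 𝓘(ℂ, E) 1 M] [IsManifold 𝓘(ℝ, E) ∞ M]
    [RiemannianBundle (fun x : M => TangentSpace 𝓘(ℝ, E) x)]
    [IsContMDiffRiemannianBundle 𝓘(ℝ, E) ∞ E (fun x : M => TangentSpace 𝓘(ℝ, E) x)]
    [IsRiemannianManifold 𝓘(ℝ, E) M]
    [CompleteSpace M] [NoncompactSpace M] [ConnectedSpace M] (hK : IsKahler E M)
    (hpos : ∀ x : M, PosBisectionalAt E x) {h : M → ℝ} (hh : ContMDiff 𝓘(ℝ, E) 𝓘(ℝ, ℝ) ∞ h)
    (hJ : HessJ E h) (x₀ : M) :
    ∃ ρ : ℝ → M → M, IsJGradFlow E h ρ ∧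
      (((∃ p, IsLocalMin h p) ∨ ∀ ε > 0, ∃ C, ∀ x, -(ε * dist x₀ x) - C ≤ h x) →
        (∃ P : M → M, MDifferentiable 𝓘(ℂ, E) 𝓘(ℂ, E) P ∧ (∀ x, P (P x) = P x) ∧
          (∀ x, mfderiv 𝓘(ℝ, E) 𝓘(ℝ, ℝ) h x = 0 ↔ P x = x) ∧ (∀ x, P x = x ↔ ∀ y, h x ≤ h y) ∧
          (∀ x, ∃ γ : ℝ → M, γ 0 = x ∧ IsDescent E h γ) ∧
          (∀ γ : ℝ → M, IsDescent E h γ → ∃ C s, 0 < s ∧
            ∀ t, 0 ≤ t → dist (γ t) (P (γ 0)) ≤ C * Real.exp (-(s * t))) ∧
          ∀ q, P q = q → ∃ e ∈ IsManifold.maximalAtlas 𝓘(ℂ, E) 1 M, q ∈ e.source ∧ e q = 0 ∧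
            (∀ (θ : ℝ), ∀ x ∈ e.source, ρ θ x ∈ e.source ∧
              e (ρ θ x) = (mfderiv 𝓘(ℂ, E) 𝓘(ℂ, E) (ρ θ) q : E → E) (e x)) ∧
            ∃ Q : E →L[ℂ] E, (∀ z, Q (Q z) = Q z) ∧
              (∀ z, Q z = z ↔ ∀ θ : ℝ, (mfderiv 𝓘(ℂ, E) 𝓘(ℂ, E) (ρ θ) q : E → E) z = z) ∧
              (∀ z ∈ e.target, Q z = z → ∀ Γ, IsChristoffel e z Γ →
                ∀ u v, Q u = u → Q v = v → Q (Γ u v) = Γ u v) ∧
              (∀ x, x ∈ e.source ↔ P x ∈ e.source) ∧ (∀ z, z ∈ e.target ↔ Q z ∈ e.target) ∧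
              ∀ x ∈ e.source, e (P x) = Q (e x)) ∧
        (((∃ p, IsLocalMax h p) ∨ ∀ ε > 0, ∃ C, ∀ x, h x ≤ ε * dist x₀ x + C) →
          ∀ x y, h x = h y) ∧
        (∀ O : Set M, IsOpen O → (O ∩ {x : M | mfderiv 𝓘(ℝ, E) 𝓘(ℝ, ℝ) h x = 0}).Nonempty →
          IsCompact (O ∩ {x : M | mfderiv 𝓘(ℝ, E) 𝓘(ℝ, ℝ) h x = 0}) →
          ∃ (p : M) (b : Module.Basis (Fin (Module.finrank ℂ E)) ℂ E)
            (m : Fin (Module.finrank ℂ E) → ℝ) (F : M ≃ₘ^1⟮𝓘(ℂ, E), 𝓘(ℂ, E)⟯ E),
            HessPosAt E h p ∧ HasWeights ρ p b m ∧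
            (∀ x, mfderiv 𝓘(ℝ, E) 𝓘(ℝ, ℝ) h x = 0 ↔ x = p) ∧ IsLinearization ρ p F) ∧
        ∀ (d : ℕ) (R : (Fin d → ℝ) → M → M) (κ : Fin d → ℝ) (x : M), IsHolIsomAction E R →
          (∀ t y, R (t • κ) y = ρ t y) → mfderiv 𝓘(ℝ, E) 𝓘(ℝ, ℝ) h x = 0 →
          IsIsotropicOrbit E R x →
          (∀ v : E, (∀ t, (mfderiv 𝓘(ℂ, E) 𝓘(ℂ, E) (ρ t) x : E → E) v = v) →
            v ∈ Submodule.span ℂ (Set.range fun ξ => velocity E R ξ x)) →
          ∃ (ξ : Fin d → ℝ) (p : M) (b : Module.Basis (Fin (Module.finrank ℂ E)) ℂ E)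
            (m : Fin (Module.finrank ℂ E) → ℝ) (F : M ≃ₘ^1⟮𝓘(ℂ, E), 𝓘(ℂ, E)⟯ E),
            (∀ η, R η p = p) ∧ mfderiv 𝓘(ℝ, E) 𝓘(ℝ, ℝ) h p = 0 ∧
            HasWeights (fun t => R (t • ξ)) p b m ∧
            IsLinearization (fun t => R (t • ξ)) p F) ∧
      ∀ (N : Set M) (c : ℝ), IsCompact N → (∀ x ∈ N, h x = c) →
        ((N.Nonempty ∧ ∀ x, h x = c → x ∈ N) ∨ (¬ IsPreconnected Nᶜ ∧ ∃ x y, h x ≠ h y)) →
        ∃ (s : ℝ) (p : M) (b : Module.Basis (Fin (Module.finrank ℂ E)) ℂ E)
          (m : Fin (Module.finrank ℂ E) → ℝ) (F : M ≃ₘ^1⟮𝓘(ℂ, E), 𝓘(ℂ, E)⟯ E),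
          (s = 1 ∨ s = -1) ∧ HessPosAt E (fun x => s * h x) p ∧
          HasWeights (fun t => ρ (s * t)) p b m ∧
          (∀ x, mfderiv 𝓘(ℝ, E) 𝓘(ℝ, ℝ) h x = 0 ↔ x = p) ∧ IsLinearization ρ p F := by
  have hρ := isJGradFlow_potFlow hK hh hJ
  refine ⟨_, hρ, fun hlow => ?_, fun N c hN hNc hsep => main_level hK hpos hh hρ hN hNc hsep⟩
  obtain ⟨h1, h2, h3⟩ := Vale.Agent.P253.H51.main_final hK hpos hh hρ hlow
  refine ⟨h1, h2, h3, fun d R κ x hR hRρ hx hiso hspan => ?_⟩
  have e1 : ln R κ = potFlow (E := E) h := by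
    funext t y
    exact hRρ t y
  exact main_orbit hK hpos hR (κ₀ := κ) hh (by rw [e1]; exact hρ) hlow hx hiso
    (fun v hv => hspan v (fun t => by rw [← e1]; exact hv t))

end Vale.Agent.Results.P253.BoundedBelowPotential
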