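import Vale.Agent.P253.H22.DG

open scoped Manifold ContDiff Bundle Topology
open Bundle Filter Vale.Agent.P253.Mfd Vale.Agent.P253.CStar Vale.Agent.P253.R2
  Vale.Agent.P253.H595 Vale.Agent.P253.H22 Vale.Agent.P253

namespace Vale.Agent.Results.P253.DissipativeAutomorphism

/-- Let `M` be a complete connected noncompact Kähler manifold of positive bisectional curvature.
(1) Let `f` be a holomorphic map from `M` to `M` (injective or not), and suppose that some compact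
set `K` meets every forward orbit `x, f x, f (f x), ...`. Then `f` has a fixed point `p`, and the
iterates of `f` converge to `p` uniformly on compact sets. If `f` is injective, then `M` is
biholomorphic to a domain `Ω` of `ℂ^n` (the target of a global holomorphic chart `e`), `e p = 0`, and
`e` conjugates an iterate of `f` to the restriction to `Ω` of an automorphism `G` of `ℂ^n`
all of whose orbits converge to `0`. If `f` is bijective, there is a biholomorphism from `M` to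
`T_p M = ℂ^n` which maps `p` to `0`.
(2) The last conclusion also holds if there are a set of pairwise commuting automorphisms of `M` and
a compact set `K` such that every compact set is mapped into `K` by one of these automorphisms.
(3) Let `G` be a commutative group of automorphisms of the complex manifold `M` which fix `p`, such
that for every compact set `C` the union of the sets `g (C)` is relatively compact (the metric is
not assumed to be invariant). If no nonconstant polynomial on `T_p M` is invariant under the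
differentials at `p` of all `g ∈ G`, there is a biholomorphism as in (1).
(4) Let `Z` be a holomorphic vector field on `M`, not assumed complete, and suppose that some
continuous exhaustion function is strictly decreasing along the integral curves of `Z` outside a
compact set. Then `Z` is complete (it generates a holomorphic action `ψ` of `ℂ`), `ψ t` converges to a
point `p` as `t → ∞`, uniformly on compact sets, and there is a biholomorphism as in (1).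
(5) So `M` is biholomorphic to `ℂ^n` if and only if it has a bijective `f` as in (1); if and only if
it has a family as in (2); if and only if it has a group as in (3); if and only if it has a
vector field as in (4). -/
theorem result {E : Type*} [NormedAddCommGroup E] [NormedSpace ℂ E] [FiniteDimensional ℂ E]
    {M : Type*} [MetricSpace M] [ChartedSpace E M]
    [IsManifold 𝓘(ℂ, E) 1 M] [IsManifold 𝓘(ℝ, E) ∞ M]
    [RiemannianBundle (fun x : M => TangentSpace 𝓘(ℝ, E) x)]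
    [IsContMDiffRiemannianBundle 𝓘(ℝ, E) ∞ E (fun x : M => TangentSpace 𝓘(ℝ, E) x)]
    [IsRiemannianManifold 𝓘(ℝ, E) M]
    [CompleteSpace M] [NoncompactSpace M] [ConnectedSpace M] (hK : IsKahler E M)
    (hpos : ∀ x : M, PosBisectionalAt E x) :
    (∀ f : M → M, MDifferentiable 𝓘(ℂ, E) 𝓘(ℂ, E) f →
      (∃ K : Set M, IsCompact K ∧ ∀ x, ∃ k : ℕ, f^[k] x ∈ K) →
      ∃ p, f p = p ∧
        (∀ C : Set M, IsCompact C → ∀ W ∈ 𝓝 p, ∀ᶠ k : ℕ in atTop, ∀ x ∈ C, f^[k] x ∈ W) ∧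
        (Function.Injective f →
          ∃ e ∈ IsManifold.maximalAtlas 𝓘(ℂ, E) 1 M, e.source = Set.univ ∧ e p = 0 ∧
            ∃ N : ℕ, 0 < N ∧ ∃ G G' : E → E, Differentiable ℂ G ∧ Differentiable ℂ G' ∧
              (∀ w, G' (G w) = w) ∧ (∀ w, G (G' w) = w) ∧
              (∀ w, Tendsto (fun k : ℕ => G^[k] w) atTop (𝓝 0)) ∧
              (∀ x, e (f^[N] x) = G (e x)) ∧ ∀ w, ∃ k : ℕ, G^[k] w ∈ e.target) ∧
        (Function.Bijective f → ∃ F : M ≃ₘ^1⟮𝓘(ℂ, E), 𝓘(ℂ, E)⟯ E, F p = 0 ∧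
          ∀ v : E, (mfderiv 𝓘(ℂ, E) 𝓘(ℂ, E) F p : E → E) v = v)) ∧
    (∀ G : Set (M ≃ₘ^1⟮𝓘(ℂ, E), 𝓘(ℂ, E)⟯ M), (∀ g ∈ G, ∀ h ∈ G, ∀ x, g (h x) = h (g x)) →
      (∃ K : Set M, IsCompact K ∧ ∀ C : Set M, IsCompact C → ∃ g ∈ G, ∀ x ∈ C, g x ∈ K) →
      ∃ p, (∀ g ∈ G, g p = p) ∧ ∃ F : M ≃ₘ^1⟮𝓘(ℂ, E), 𝓘(ℂ, E)⟯ E, F p = 0 ∧
        ∀ v : E, (mfderiv 𝓘(ℂ, E) 𝓘(ℂ, E) F p : E → E) v = v) ∧
    (∀ (p : M) (G : Set (M → M)), (∀ g ∈ G, MDifferentiable 𝓘(ℂ, E) 𝓘(ℂ, E) g ∧ g p = p) →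
      (∀ g ∈ G, ∀ h ∈ G, g ∘ h ∈ G ∧ ∀ x, g (h x) = h (g x)) →
      (∀ g ∈ G, ∃ h ∈ G, ∀ x, h (g x) = x) →
      (∀ C : Set M, IsCompact C → ∃ C' : Set M, IsCompact C' ∧ ∀ g ∈ G, ∀ x ∈ C, g x ∈ C') →
      (∀ (k : ℕ) (q : MultilinearMap ℂ (fun _ : Fin k => E) ℂ), 0 < k →
        (∀ g ∈ G, ∀ v : E, q (fun _ => (mfderiv 𝓘(ℂ, E) 𝓘(ℂ, E) g p : E → E) v) =
          q (fun _ => v)) → ∀ v, q (fun _ => v) = 0) →
      ∃ F : M ≃ₘ^1⟮𝓘(ℂ, E), 𝓘(ℂ, E)⟯ E, F p = 0 ∧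
        ∀ v : E, (mfderiv 𝓘(ℂ, E) 𝓘(ℂ, E) F p : E → E) v = v) ∧
    (∀ Z : (x : M) → TangentSpace 𝓘(ℂ, E) x, IsHolField Z → IsDissipativeField E Z →
      ∃ (ψ : ℂ → M → M) (p : M), IsHolCFlow E ψ ∧ (∀ x ζ, IntAt Z (fun w => ψ w x) ζ) ∧
        (∀ t : ℝ, 0 ≤ t → ψ t p = p) ∧
        (∀ C : Set M, IsCompact C → ∀ W ∈ 𝓝 p, ∀ᶠ t : ℝ in atTop, ∀ x ∈ C, ψ t x ∈ W) ∧
        ∃ F : M ≃ₘ^1⟮𝓘(ℂ, E), 𝓘(ℂ, E)⟯ E, F p = 0 ∧
          ∀ v : E, (mfderiv 𝓘(ℂ, E) 𝓘(ℂ, E) F p : E → E) v = v) ∧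
    List.TFAE [Nonempty (M ≃ₘ^1⟮𝓘(ℂ, E), 𝓘(ℂ, E)⟯ E),
      ∃ f : M → M, MDifferentiable 𝓘(ℂ, E) 𝓘(ℂ, E) f ∧ Function.Bijective f ∧
        ∃ K : Set M, IsCompact K ∧ ∀ x, ∃ k : ℕ, f^[k] x ∈ K,
      ∃ G : Set (M ≃ₘ^1⟮𝓘(ℂ, E), 𝓘(ℂ, E)⟯ M), (∀ g ∈ G, ∀ h ∈ G, ∀ x, g (h x) = h (g x)) ∧
        ∃ K : Set M, IsCompact K ∧ ∀ C : Set M, IsCompact C → ∃ g ∈ G, ∀ x ∈ C, g x ∈ K,
      ∃ (p : M) (G : Set (M → M)),
        (∀ g ∈ G, MDifferentiable 𝓘(ℂ, E) 𝓘(ℂ, E) g ∧ g p = p) ∧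
        (∀ g ∈ G, ∀ h ∈ G, g ∘ h ∈ G ∧ ∀ x, g (h x) = h (g x)) ∧
        (∀ g ∈ G, ∃ h ∈ G, ∀ x, h (g x) = x) ∧
        (∀ C : Set M, IsCompact C → ∃ C' : Set M, IsCompact C' ∧ ∀ g ∈ G, ∀ x ∈ C, g x ∈ C') ∧
        ∀ (k : ℕ) (q : MultilinearMap ℂ (fun _ : Fin k => E) ℂ), 0 < k →
          (∀ g ∈ G, ∀ v : E, q (fun _ => (mfderiv 𝓘(ℂ, E) 𝓘(ℂ, E) g p : E → E) v) =
            q (fun _ => v)) → ∀ v, q (fun _ => v) = 0,
      ∃ Z : (x : M) → TangentSpace 𝓘(ℂ, E) x, IsHolField Z ∧ IsDissipativeField E Z] :=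
  ⟨fun _ hf hmeet => main_map hK hpos hf hmeet,
    fun G hG hfam => H89.commuting_clause hK (fun x => (hpos x).nonneg) hpos G hG hfam,
    fun _ _ h1 h2 h3 h4 h5 => main_group hK hpos h1 h2 h3 h4 h5,
    fun _ hZ hd => main_field hK hpos hZ hd, main_tfae' hK hpos⟩

end Vale.Agent.Results.P253.DissipativeAutomorphism
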