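import Vale.Agent.P253.H22.KS

open scoped Manifold ContDiff Bundle
open Bundle Vale.Agent.P253.Mfd Vale.Agent.P253.H348

namespace Vale.Agent.Results.P253.KillingPotentials

/-- Let `M` be a complete connected noncompact Kähler manifold of nonnegative bisectional
curvature, `ρ` a one-parameter group of holomorphic isometries of `M`, `X` its generator,
`V = -JX`, and `S(a) = g(∇_a V, a)`.
(1) Suppose that `S` is positive definite at ONE point of `M`; or that `S ≥ 0` at one point `x` where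
the curvature is positive and `X ≠ 0`. Then `ρ` has a fixed point `p`, at which
`d(ρ t) = diag (exp (i m_j t))` with real `m_j > 0`, and if the curvature is positive at
`p`, or if `S ≥ 0` on `M`, then `p` is the only fixed point, and a biholomorphism from `M` to
`T_p M = ℂ^n` conjugates `ρ` to its differential at `p`.
(2) If the curvature is positive, then `M` is biholomorphic to `ℂ^n`, or for each one-parameter
group of holomorphic isometries the form `S` is indefinite at each point where `X ≠ 0`.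
(3) If `h` is a smooth function whose Hessian is invariant under `J` (a Killing potential), then
`J ∇h` is complete and generates a one-parameter group of holomorphic isometries; it has
`S(a) = ∇²h(a, a)`, and its fixed points are the critical points of `h`.
(4) Gradient Kähler-Ricci solitons `Rc + ∇²f = lam g`, `lam ≤ 0`: if `Rc > lam g` at one point
(for instance if the curvature is positive at one point), then `f` has exactly one critical point
`p`, and a biholomorphism from `M` to `T_p M = ℂ^n` linearizes the flow of `-J ∇f`.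
(5) Discrete groups. Let the curvature be positive at `p`, and let commuting holomorphic isometries
(for instance a single one) fix `p`. If no nonconstant polynomial on `T_p M` is invariant under their
differentials, there is a biholomorphism from `M` to `T_p M = ℂ^n` with `F p = 0`, `dF_p = id`. -/
theorem result {E : Type*} [NormedAddCommGroup E] [NormedSpace ℂ E] [FiniteDimensional ℂ E]
    {M : Type*} [MetricSpace M] [ChartedSpace E M]
    [IsManifold 𝓘(ℂ, E) 1 M] [IsManifold 𝓘(ℝ, E) ∞ M]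
    [RiemannianBundle (fun x : M => TangentSpace 𝓘(ℝ, E) x)]
    [IsContMDiffRiemannianBundle 𝓘(ℝ, E) ∞ E (fun x : M => TangentSpace 𝓘(ℝ, E) x)]
    [IsRiemannianManifold 𝓘(ℝ, E) M]
    [CompleteSpace M] [NoncompactSpace M] [ConnectedSpace M] (hK : IsKahler E M)
    (hnn : ∀ x : M, NonnegBisectionalAt E x) :
    (∀ ρ : ℝ → M → M, IsHolIsomFlow E ρ →
      ((∃ x : M, SPosAt E ρ x) ∨
        ∃ x : M, PosBisectionalAt E x ∧ (∃ t, ρ t x ≠ x) ∧ SNonnegAt E ρ x) →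
      ∃ (p : M) (b : Module.Basis (Fin (Module.finrank ℂ E)) ℂ E)
        (m : Fin (Module.finrank ℂ E) → ℝ), SPosAt E ρ p ∧ HasWeights ρ p b m ∧
        (PosBisectionalAt E p ∨ (∀ x : M, SNonnegAt E ρ x) →
          (∀ x, (∀ t, ρ t x = x) ↔ x = p) ∧
          ∃ F : M ≃ₘ^1⟮𝓘(ℂ, E), 𝓘(ℂ, E)⟯ E, IsLinearization ρ p F)) ∧
    ((∀ x : M, PosBisectionalAt E x) → Nonempty (M ≃ₘ^1⟮𝓘(ℂ, E), 𝓘(ℂ, E)⟯ E) ∨
      ∀ ρ : ℝ → M → M, IsHolIsomFlow E ρ → ∀ x, (∃ t, ρ t x ≠ x) →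
        ∀ e ∈ IsManifold.maximalAtlas 𝓘(ℂ, E) 1 M, x ∈ e.source →
          ∀ Γ, IsChristoffel e (e x) Γ →
            (∃ a, SForm ρ e (e x) Γ a < 0) ∧ ∃ a, 0 < SForm ρ e (e x) Γ a) ∧
    (∀ h : M → ℝ, ContMDiff 𝓘(ℝ, E) 𝓘(ℝ, ℝ) ∞ h → HessJ E h →
      ∃ ρ : ℝ → M → M, IsJGradFlow E h ρ ∧
        (∀ x, (∀ t, ρ t x = x) ↔ mfderiv 𝓘(ℝ, E) 𝓘(ℝ, ℝ) h x = 0) ∧
        ∀ e ∈ IsManifold.maximalAtlas 𝓘(ℂ, E) 1 M, ∀ z ∈ e.target,
          ∀ Γ, IsChristoffel e z Γ → ∀ a, SForm ρ e z Γ a = HessAt e z Γ h a) ∧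
    (∀ (f : M → ℝ) (lam : ℝ), IsGradSoliton E f lam → lam ≤ 0 →
      (∃ x : M, RicciGTAt E lam x ∨ PosBisectionalAt E x) →
      ∃ (ρ : ℝ → M → M) (p : M) (b : Module.Basis (Fin (Module.finrank ℂ E)) ℂ E)
        (m : Fin (Module.finrank ℂ E) → ℝ) (F : M ≃ₘ^1⟮𝓘(ℂ, E), 𝓘(ℂ, E)⟯ E),
        IsJGradFlow E (fun x => -f x) ρ ∧
        (∀ x, mfderiv 𝓘(ℝ, E) 𝓘(ℝ, ℝ) f x = 0 ↔ x = p) ∧ HasWeights ρ p b m ∧
        IsLinearization ρ p F) ∧
    ∀ (p : M) (G : Set (M → M)), PosBisectionalAt E p →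
      (∀ g ∈ G, MDifferentiable 𝓘(ℂ, E) 𝓘(ℂ, E) g ∧ Isometry g ∧ g p = p) →
      (∀ g ∈ G, ∀ h ∈ G, ∀ x, g (h x) = h (g x)) →
      (∀ (k : ℕ) (q : MultilinearMap ℂ (fun _ : Fin k => E) ℂ), 0 < k →
        (∀ g ∈ G, ∀ v : E, q (fun _ => (mfderiv 𝓘(ℂ, E) 𝓘(ℂ, E) g p : E → E) v) =
          q (fun _ => v)) → ∀ v, q (fun _ => v) = 0) →
      ∃ F : M ≃ₘ^1⟮𝓘(ℂ, E), 𝓘(ℂ, E)⟯ E, F p = 0 ∧
        ∀ v : E, (mfderiv 𝓘(ℂ, E) 𝓘(ℂ, E) F p : E → E) v = v := by
  refine ⟨fun ρ hρ h => Vale.Agent.P253.H22.main_isom hK hnn hρ (h.imp_right Or.inl),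
    fun hpos => ?_, fun h hh hJ => ?_,
    fun f lam hs hlam ⟨x, hx⟩ => Vale.Agent.P253.H22.main_soliton_asm hK hnn hs hlam hx,
    fun p G hp hG hc hi => Vale.Agent.P253.H22.main_isopoly_nn hK hnn hp hG hc hi⟩
  · by_cases hM : Nonempty (M ≃ₘ^1⟮𝓘(ℂ, E), 𝓘(ℂ, E)⟯ E)
    · exact Or.inl hM
    · exact Or.inr fun ρ hρ x hx e he hxe Γ hΓ =>
        Vale.Agent.P253.H22.dichotomy_isom hK hpos hM hρ hx he hxe hΓ
  · have hρ := isJGradFlow_potFlow hK hh hJ
    exact ⟨_, hρ, fun x => hρ.fixed_iff hK hh x, fun e he z hz Γ hΓ a =>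
      Vale.Agent.P253.H22.SForm_eq_HessAt hK hh hρ he hz hΓ a⟩

end Vale.Agent.Results.P253.KillingPotentials
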