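import Vale.Agent.P253.H22.NQ

open scoped Manifold ContDiff Bundle Topology
open Bundle Filter Vale.Agent.P253.Mfd Vale.Agent.P253.CStar Vale.Agent.P253.R2
  Vale.Agent.P253.H595 Vale.Agent.P253.H89 Vale.Agent.P253.H22 Vale.Agent.P253

namespace Vale.Agent.Results.P253.NonexpandingMaps

/-- Let `M` be a complete connected noncompact Kähler manifold of positive bisectional curvature.
(1) Let `f` be a holomorphic map from `M` to `M` which does not increase distances, or only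
asymptotically: for every compact set `C` and `ε > 0` the iterate `f^k` is `(1 + ε)`-Lipschitz on `C`
if `k` is large. Then all forward orbits of `f` tend to infinity, or `f` is an isometry, or `f` has a
fixed point `p` and the iterates of `f` converge to `p` uniformly on compact sets. In the last case
`M` is biholomorphic to a domain of `ℂ^n` if `f` is injective, and to `T_p M = ℂ^n` if `f` is
bijective.
(2) The last alternative holds if `f` is contracting in the mean: `|df| ≤ l (r)`, `r` the distance to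
a point `o`, `l` continuous (values `> 1` are allowed), and `d(o, f(o)) + ∫_0^r l < r` for large `r`.
(3) Let `Z` be a holomorphic vector field with `L_Z g ≥ 0`, not assumed complete. Then `Z` is
complete, and all orbits of `-Z` tend to infinity, or `Z` is a Killing field, or the flow of `-Z`
converges to a point, uniformly on compact sets, and `M` is biholomorphic to `ℂ^n`.
(4) The last alternative holds if `L_Z g ≥ 0` is positive somewhere and `|Z|` has a local minimum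
(for instance a zero) or is not too small at infinity, which means: the bisectional curvature is
`≥ k (r) > 0`, `k` nonincreasing, `∫_0^∞ s k (s) ds = ∞` (for instance `k (r) = c / (1 + r)^2`), and
`|Z| ≥ c exp (- a ∫_0^r s k (s) ds)` outside a compact set, `c > 0`, `a < 1 / 2` (for instance
`|Z| ≥ c`); or if `½ L_Z g ≥ k (r) g`, `k` continuous (negative values are allowed), and
`∫_0^r k > |Z(o)|` for large `r`; or if the metric is a Kähler-Ricci soliton `Rc = lam g + ½ L_Z g`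
(`Z` not necessarily a gradient) with `lam < 0`, or with `lam = 0` if `|Z|` has a local minimum or is
not too small at infinity. -/
theorem result {E : Type*} [NormedAddCommGroup E] [NormedSpace ℂ E] [FiniteDimensional ℂ E]
    {M : Type*} [MetricSpace M] [ChartedSpace E M]
    [IsManifold 𝓘(ℂ, E) 1 M] [IsManifold 𝓘(ℝ, E) ∞ M]
    [RiemannianBundle (fun x : M => TangentSpace 𝓘(ℝ, E) x)]
    [IsContMDiffRiemannianBundle 𝓘(ℝ, E) ∞ E (fun x : M => TangentSpace 𝓘(ℝ, E) x)]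
    [IsRiemannianManifold 𝓘(ℝ, E) M]
    [CompleteSpace M] [NoncompactSpace M] [ConnectedSpace M] (hK : IsKahler E M)
    (hpos : ∀ x : M, PosBisectionalAt E x) :
    (∀ f : M → M, MDifferentiable 𝓘(ℂ, E) 𝓘(ℂ, E) f → AsympNonexp f →
      (∀ x, Tendsto (fun k : ℕ => f^[k] x) atTop (cocompact M)) ∨ Isometry f ∨
      ∃ p, f p = p ∧
        (∀ C : Set M, IsCompact C → ∀ W ∈ 𝓝 p, ∀ᶠ k : ℕ in atTop, ∀ x ∈ C, f^[k] x ∈ W) ∧
        (Function.Injective f →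
          ∃ e ∈ IsManifold.maximalAtlas 𝓘(ℂ, E) 1 M, e.source = Set.univ) ∧
        (Function.Bijective f → ∃ F : M ≃ₘ^1⟮𝓘(ℂ, E), 𝓘(ℂ, E)⟯ E, F p = 0 ∧
          ∀ v : E, (mfderiv 𝓘(ℂ, E) 𝓘(ℂ, E) F p : E → E) v = v)) ∧
    (∀ f : M → M, MDifferentiable 𝓘(ℂ, E) 𝓘(ℂ, E) f →
      (∃ (o : M) (l : ℝ → ℝ) (R : ℝ), Continuous l ∧
        (∀ (x : M) (v : TangentSpace 𝓘(ℝ, E) x),
          ‖(mfderiv 𝓘(ℝ, E) 𝓘(ℝ, E) f x v : TangentSpace 𝓘(ℝ, E) (f x))‖ ≤
            l (dist o x) * ‖v‖) ∧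
        ∀ r, R ≤ r → dist o (f o) + ∫ s in (0:ℝ)..r, l s < r) →
      ∃ p, f p = p ∧
        (∀ C : Set M, IsCompact C → ∀ W ∈ 𝓝 p, ∀ᶠ k : ℕ in atTop, ∀ x ∈ C, f^[k] x ∈ W) ∧
        (Function.Injective f →
          ∃ e ∈ IsManifold.maximalAtlas 𝓘(ℂ, E) 1 M, e.source = Set.univ) ∧
        (Function.Bijective f → ∃ F : M ≃ₘ^1⟮𝓘(ℂ, E), 𝓘(ℂ, E)⟯ E, F p = 0 ∧
          ∀ v : E, (mfderiv 𝓘(ℂ, E) 𝓘(ℂ, E) F p : E → E) v = v)) ∧
    (∀ Z : (x : M) → TangentSpace 𝓘(ℂ, E) x, IsHolField Z → LieNonneg Z →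
      ∃ ψ : ℂ → M → M, IsHolCFlow E ψ ∧ (∀ x ζ, IntAt Z (fun w => ψ w x) ζ) ∧
        ((∀ x, Tendsto (fun t : ℝ => ψ (-t) x) atTop (cocompact M)) ∨
        ((∀ (t : ℝ) x y, dist (ψ t x) (ψ t y) = dist x y) ∧ ¬ LiePosSomewhere Z) ∨
        ∃ p, (∀ ζ, ψ ζ p = p) ∧
          (∀ C : Set M, IsCompact C → ∀ W ∈ 𝓝 p, ∀ᶠ t : ℝ in atTop, ∀ x ∈ C, ψ (-t) x ∈ W) ∧
          ∃ F : M ≃ₘ^1⟮𝓘(ℂ, E), 𝓘(ℂ, E)⟯ E, F p = 0 ∧
            ∀ v : E, (mfderiv 𝓘(ℂ, E) 𝓘(ℂ, E) F p : E → E) v = v)) ∧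
    (∀ Z : (x : M) → TangentSpace 𝓘(ℂ, E) x, IsHolField Z →
      ((LieNonneg Z ∧ LiePosSomewhere Z ∧ NotSmall E Z) ∨
        (∃ (o : M) (k : ℝ → ℝ) (R : ℝ), Continuous k ∧ LieGeRadial Z o k ∧
          ∀ r, R ≤ r → fnorm E Z o < ∫ s in (0:ℝ)..r, k s) ∨
        ∃ lam, IsRicciSoliton E Z lam ∧
          (lam < 0 ∨ (lam = 0 ∧ NotSmall E Z))) →
      ∃ (ψ : ℂ → M → M) (p : M), IsHolCFlow E ψ ∧ (∀ x ζ, IntAt Z (fun w => ψ w x) ζ) ∧
        (∀ ζ, ψ ζ p = p) ∧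
        (∀ C : Set M, IsCompact C → ∀ W ∈ 𝓝 p, ∀ᶠ t : ℝ in atTop, ∀ x ∈ C, ψ (-t) x ∈ W) ∧
        ∃ F : M ≃ₘ^1⟮𝓘(ℂ, E), 𝓘(ℂ, E)⟯ E, F p = 0 ∧
          ∀ v : E, (mfderiv 𝓘(ℂ, E) 𝓘(ℂ, E) F p : E → E) v = v) :=
  ⟨fun _ hf hA => main_tri hK hpos hf hA,
    fun _ hf ⟨_, _, _, hl, hd, hR⟩ => main_mean hK hpos hf hl hd hR,
    fun _ hZ h => main_lie hK hpos hZ h,
    fun _ hZ h => main_five_q hK hpos hZ h⟩

end Vale.Agent.Results.P253.NonexpandingMaps
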